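import Vale.Agent.P141.H841.ShiftR

/-!
# P141, line (A): the moving slot of a later generation on a shifted grid

The landed bounds of `H841` see the whole energy of the tree.  Here the layers carry their signs
(`Nx`), so that a slot which lives on a small set of `x₀` has small numbers.

* `dev_les` : `dev_le` with the signs kept;
* `near_movV` : the near part for every martingale `V` in `x₀`;
* `VD` : the martingale of `v` on the union of the cells `Dn`;
-/

namespace Vale.Agent.P141.H179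

open Finset Matrix
open Vale.Agent.P141.PL (iv ix hs mem_iv ix_ix card_iv)
open Vale.Agent.P141.H922 (ck iv_iv)
open Vale.Agent.P141.H43 (avv nsq nsq_nonneg)
open Vale.Agent.P141.H420 (Tr)
open Vale.Agent.P141.H483 (mT)
open Vale.Agent.P141.H876 (wn near_root)
open Vale.Agent.P141.H841

noncomputable section

variable {ι : Type*} [Fintype ι]
variable {Mx : ℕ → ℤ → Matrix ι ι ℝ} {o x1 T : ℤ} {s : ℕ → ℤ → ℤ → ℝ} {n : ℕ}

/-! ### Layers with signs -/

/-- the square of a layer with its sign -/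
def Nx (Mx : ℕ → ℤ → Matrix ι ι ℝ) (o x1 : ℤ) (s : ℕ → ℤ → ℤ → ℝ) (i : ℕ) (x0 p : ℤ)
    (w : ι → ℝ) : ℝ :=
  s i (ix i x0) (ix i p) ^ 2 * Nn Mx o x1 i x0 p w

theorem Nx_nonneg (i : ℕ) (x0 p : ℤ) (w : ι → ℝ) : 0 ≤ Nx Mx o x1 s i x0 p w :=
  mul_nonneg (sq_nonneg _) (Nn_nonneg _ _ _ _ _ _ _)

theorem Nx_le (hs1 : ∀ k a b, |s k a b| ≤ 1) (i : ℕ) (x0 p : ℤ) (w : ι → ℝ) :
    Nx Mx o x1 s i x0 p w ≤ Nn Mx o x1 i x0 p w := by
  have h := hs1 i (ix i x0) (ix i p)
  have h2 : s i (ix i x0) (ix i p) ^ 2 ≤ 1 := by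
    rw [← sq_abs]
    exact pow_le_one₀ (abs_nonneg _) h
  calc _ ≤ 1 * _ := mul_le_mul_of_nonneg_right h2 (Nn_nonneg _ _ _ _ _ _ _)
    _ = _ := one_mul _

theorem nsq_gl_eq (i : ℕ) (x0 p : ℤ) (w : ι → ℝ) :
    nsq (gl Mx o x1 s i x0 w (ix i p)) = Nx Mx o x1 s i x0 p w := by
  unfold Nx gl Nn H922.ck
  rw [nsq_smul, mul_pow, sq (hs i x0), PL.hs_mul_self, mul_one]

theorem nsq_Lm_eq (i : ℕ) (x0 p : ℤ) (w : ι → ℝ) :
    nsq (Lm Mx o x1 s i x0 p *ᵥ w) = Nx Mx o x1 s i x0 p w := by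
  rw [Lm_vec, nsq_smul, sq, PL.hs_mul_self, one_mul]
  exact nsq_gl_eq i x0 p w

/-- **The deviation of the slot on the shifted grid, one point, signs kept.** -/
theorem dev_les (n : ℕ) (sh : ℤ) {k : ℕ} (hk : k ≤ n) (x0 y : ℤ) (w : ι → ℝ) :
    nsq ((Rs Mx o x1 s n sh k x0 (ix k (y - sh)) - Rm Mx o x1 s n k x0 y) *ᵥ w) ≤
      ∑ i ∈ range n, om sh k i y * (Nx Mx o x1 s (i + 1) x0 (st sh k y) w +
        Nx Mx o x1 s (i + 1) x0 (st sh k y + 2 ^ k) w) := by
  set a := st sh k y with ha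
  obtain ⟨hy1, hy2⟩ := st_bd sh k y
  rw [← ha] at hy1 hy2
  set A : ℕ → ι → ℝ := fun i => ((2 : ℝ) ^ k)⁻¹ • ∑ p ∈ Ico a (a + 2 ^ k),
    hs (i + 1) p • gl Mx o x1 s (i + 1) x0 w (ix (i + 1) p) with hA
  set B : ℕ → ι → ℝ := fun i => hs (i + 1) y • gl Mx o x1 s (i + 1) x0 w (ix (i + 1) y) with hB
  set N : ℕ → ℝ := fun i => Nx Mx o x1 s (i + 1) x0 a w + Nx Mx o x1 s (i + 1) x0 (a + 2 ^ k) w
    with hN
  have hN0 : ∀ i, 0 ≤ N i := fun i => add_nonneg (Nx_nonneg _ _ _ _) (Nx_nonneg _ _ _ _)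
  have e1 : (Rs Mx o x1 s n sh k x0 (ix k (y - sh)) - Rm Mx o x1 s n k x0 y) *ᵥ w =
      ∑ i ∈ range k, A i + ∑ i ∈ Ico k n, (A i - B i) := by
    rw [sub_mulVec, Rs_vec, Rm_vec, sum_sub_distrib, ← add_sub_assoc]
    congr 1
    rw [range_eq_Ico, range_eq_Ico, sum_Ico_consecutive _ (Nat.zero_le k) hk]
  rw [e1]
  have f1 : nsq (∑ i ∈ range k, A i) ≤
      2 * ∑ i ∈ range k, ((k - i : ℕ) : ℝ) ^ 2 * (2 * ((4 : ℝ) ^ (k - i))⁻¹ * N i) := by
    refine (nsq_sum_le (range k) (fun i => ((k - i : ℕ) : ℝ)) (fun i hi => ?_) A).trans ?_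
    · rw [mem_range] at hi
      have : 0 < k - i := by omega
      exact_mod_cast this
    · have h1 : ∑ i ∈ range k, (((k - i : ℕ) : ℝ))⁻¹ ^ 2 ≤ 2 := by
        have h2 := sum_inv_sq k
        rw [← sum_range_reflect] at h2
        refine le_trans (le_of_eq (sum_congr rfl fun i hi => ?_)) h2
        rw [mem_range] at hi
        have : ((k - i : ℕ) : ℝ) = ((k - 1 - i : ℕ) : ℝ) + 1 := by
          have : k - i = k - 1 - i + 1 := by omega
          rw [this]; push_cast; ring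
        rw [this]
      refine mul_le_mul h1 (sum_le_sum fun i hi => ?_) (sum_nonneg fun i _ =>
        mul_nonneg (by positivity) (nsq_nonneg _)) (by norm_num)
      rw [mem_range] at hi
      refine mul_le_mul_of_nonneg_left ?_ (by positivity)
      refine (lay_fine hi a _).trans (mul_le_mul_of_nonneg_left ?_ (by positivity))
      exact add_le_add (nsq_gl_eq _ _ _ _).le (nsq_gl_eq _ _ _ _).le
  have f2 : nsq (∑ i ∈ Ico k n, (A i - B i)) ≤
      2 * ∑ i ∈ Ico k n, ((i + 1 - k : ℕ) : ℝ) ^ 2 *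
        ((if ix i a = ix i (a + 2 ^ k) then 0 else 2) * N i) := by
    refine (nsq_sum_le (Ico k n) (fun i => ((i + 1 - k : ℕ) : ℝ)) (fun i hi => ?_) _).trans ?_
    · rw [mem_Ico] at hi
      have : 0 < i + 1 - k := by omega
      exact_mod_cast this
    · have h1 : ∑ i ∈ Ico k n, (((i + 1 - k : ℕ) : ℝ))⁻¹ ^ 2 ≤ 2 := by
        have h2 := sum_inv_sq (n - k)
        rw [sum_Ico_eq_sum_range]
        refine le_trans (le_of_eq (sum_congr rfl fun i _ => ?_)) h2
        have : ((k + i + 1 - k : ℕ) : ℝ) = (i : ℝ) + 1 := by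
          have : k + i + 1 - k = i + 1 := by omega
          rw [this]; push_cast; ring
        rw [this]
      refine mul_le_mul h1 (sum_le_sum fun i hi => ?_) (sum_nonneg fun i _ =>
        mul_nonneg (by positivity) (nsq_nonneg _)) (by norm_num)
      rw [mem_Ico] at hi
      refine mul_le_mul_of_nonneg_left ?_ (by positivity)
      refine (lay_coarse hi.1 hy1 hy2 _).trans (mul_le_mul_of_nonneg_left ?_ ?_)
      · exact add_le_add (nsq_gl_eq _ _ _ _).le (nsq_gl_eq _ _ _ _).le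
      · split_ifs <;> norm_num
  refine (nsq_add_le _ _).trans ?_
  have e2 : ∑ i ∈ range n, om sh k i y * N i =
      ∑ i ∈ range k, om sh k i y * N i + ∑ i ∈ Ico k n, om sh k i y * N i := by
    rw [range_eq_Ico, range_eq_Ico, sum_Ico_consecutive _ (Nat.zero_le k) hk]
  refine le_trans ?_ (le_of_eq e2.symm)
  refine add_le_add ?_ ?_
  · calc 2 * nsq (∑ i ∈ range k, A i) ≤ 2 * (2 * ∑ i ∈ range k, ((k - i : ℕ) : ℝ) ^ 2 *
          (2 * ((4 : ℝ) ^ (k - i))⁻¹ * N i)) := by linarith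
      _ = ∑ i ∈ range k, om sh k i y * N i := by
        rw [mul_sum, mul_sum]
        refine sum_congr rfl fun i hi => ?_
        rw [mem_range] at hi
        unfold om
        rw [if_pos hi]
        ring
  · calc 2 * nsq (∑ i ∈ Ico k n, (A i - B i)) ≤ 2 * (2 * ∑ i ∈ Ico k n,
          ((i + 1 - k : ℕ) : ℝ) ^ 2 * ((if ix i a = ix i (a + 2 ^ k) then 0 else 2) * N i)) := by
            linarith
      _ = ∑ i ∈ Ico k n, om sh k i y * N i := by
        rw [mul_sum, mul_sum]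
        refine sum_congr rfl fun i hi => ?_
        have hi' := (mem_Ico.1 hi).1
        unfold om
        rw [if_neg (not_lt.2 hi'), ← ha]
        by_cases hc : ix i a = ix i (a + 2 ^ k)
        · rw [if_pos hc, if_pos hc]
          ring
        · rw [if_neg hc, if_neg hc]
          ring

/-! ### The moving lemma for any martingale -/

/-- **The moving lemma at displaced cells of `x₃`, any martingale in `x₀`.** -/
theorem off_sumV [DecidableEq ι] {l : ℝ} {G K : ℕ → ℤ → Matrix ι ι ℝ} (h : Tr l n G K)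
    (hM : ∀ k m a, Mx k m *ᵥ a = mT l K k m a) (ho : o = 1 ∨ o = -1) (y : ℤ)
    {V : ℕ → ℤ → ι → ℝ} (hV : H483.Mart n V) (hX : ∀ x, x ∉ iv n T → V 0 x = 0)
    {r : ℕ} (hr : r ≤ n) (p : ℕ → ℤ)
    (hp : ∀ j, 1 ≤ j → j + r ≤ n → |ix j (p j) - ix j y| ≤ 2 * 2 ^ r) :
    ∑ j ∈ Icc 1 (n - r), ∑ x0 ∈ iv n T, Nn Mx o x1 j x0 (p j) (V j (ix j x0)) ≤
      10000 * (1 + (r : ℝ)) ^ 2 * ∑ x0 ∈ iv n T, nsq (V 0 x0) := by
  set δ : ℕ → ℤ := fun j => if |ix j (p j) - ix j y| ≤ 2 * 2 ^ r then ix j (p j) - ix j y else 0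
    with hδ
  have hδ1 : ∀ j, |δ j| ≤ 2 * 2 ^ r := by
    intro j
    simp only [hδ]
    split_ifs with h1
    · exact h1
    · rw [abs_zero]
      positivity
  have key := H210.move_off h ho x1 y hV hX hr hδ1 (fun j => iv (n - j) T)
  refine le_trans (le_of_eq (sum_congr rfl fun j hj => ?_)) key
  rw [mem_Icc] at hj
  have hjn : j ≤ n := by omega
  rw [← iv_iv hjn, mul_sum]
  refine sum_congr rfl fun m hm => ?_
  have e1 : ∀ x0 ∈ iv j m, Nn Mx o x1 j x0 (p j) (V j (ix j x0)) =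
      mT l K j (ck o x1 y j - δ j - m) (V j m) ⬝ᵥ mT l K j (ck o x1 y j - δ j - m) (V j m) := by
    intro x0 hx
    rw [mem_iv] at hx
    have e2 : δ j = ix j (p j) - ix j y := by
      simp only [hδ]
      rw [if_pos (hp j hj.1 (by omega))]
    have e3 : ck o x1 (p j) j - ix j x0 = ck o x1 y j - δ j - m := by
      unfold H922.ck
      rw [e2, hx]
      ring
    unfold Nn
    rw [e3, hM, hx]
    rfl
  rw [sum_congr rfl e1, sum_const, card_iv, nsmul_eq_mul]
  push_cast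
  ring

/-- **The near part for any martingale.** -/
theorem near_movV [DecidableEq ι] {l : ℝ} {G K : ℕ → ℤ → Matrix ι ι ℝ} (h : Tr l n G K)
    (hM : ∀ k m a, Mx k m *ᵥ a = mT l K k m a) (ho : o = 1 ∨ o = -1) (sh y : ℤ)
    {V : ℕ → ℤ → ι → ℝ} (hV : H483.Mart n V) (hX : ∀ x, x ∉ iv n T → V 0 x = 0) (L : ℕ) :
    ∑ k ∈ range (n + 1), ∑ i ∈ range n, (if i + 1 ≤ k + L then om sh k i y * 2 ^ (k - (i + 1)) *
      ∑ x0 ∈ iv n T, (Nn Mx o x1 (i + 1) x0 (st sh k y) (V (i + 1) (ix (i + 1) x0)) +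
        Nn Mx o x1 (i + 1) x0 (st sh k y + 2 ^ k) (V (i + 1) (ix (i + 1) x0))) else 0) ≤
      (600 + 8 * (L : ℝ) ^ 3) * (20000 * ∑ x0 ∈ iv n T, nsq (V 0 x0)) := by
  set E0 := ∑ x0 ∈ iv n T, nsq (V 0 x0) with hE0
  have hE : 0 ≤ E0 := sum_nonneg fun _ _ => nsq_nonneg _
  refine H690.near_diag n L sh y (F := fun k i => ∑ x0 ∈ iv n T,
    (Nn Mx o x1 (i + 1) x0 (st sh k y) (V (i + 1) (ix (i + 1) x0)) +
      Nn Mx o x1 (i + 1) x0 (st sh k y + 2 ^ k) (V (i + 1) (ix (i + 1) x0))))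
    (fun k i => sum_nonneg fun _ _ => add_nonneg (Nn_nonneg _ _ _ _ _ _ _)
      (Nn_nonneg _ _ _ _ _ _ _)) (by positivity) (fun r hr => ?_) fun d hd1 _ => ?_
  · have e1 : ∑ i ∈ range (n - r), ∑ x0 ∈ iv n T,
        (Nn Mx o x1 (i + 1) x0 (st sh (i + 1 + r) y) (V (i + 1) (ix (i + 1) x0)) +
        Nn Mx o x1 (i + 1) x0 (st sh (i + 1 + r) y + 2 ^ (i + 1 + r))
          (V (i + 1) (ix (i + 1) x0))) =
        ∑ j ∈ Icc 1 (n - r), ∑ x0 ∈ iv n T,
          Nn Mx o x1 j x0 (st sh (j + r) y) (V j (ix j x0)) +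
        ∑ j ∈ Icc 1 (n - r), ∑ x0 ∈ iv n T,
          Nn Mx o x1 j x0 (st sh (j + r) y + 2 ^ (j + r)) (V j (ix j x0)) := by
      simp only [sum_add_distrib]
      congr 1
      · rw [range_eq_Ico, sum_Ico_add' (fun j => ∑ x0 ∈ iv n T,
          Nn Mx o x1 j x0 (st sh (j + r) y) (V j (ix j x0))) 0 (n - r) 1]
        rfl
      · rw [range_eq_Ico, sum_Ico_add' (fun j => ∑ x0 ∈ iv n T,
          Nn Mx o x1 j x0 (st sh (j + r) y + 2 ^ (j + r)) (V j (ix j x0))) 0 (n - r) 1]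
        rfl
    rw [e1]
    have a1 := off_sumV (x1 := x1) (T := T) h hM ho y hV hX hr.le (fun j => st sh (j + r) y)
      fun j _ _ => (st_off sh (j := j) r le_rfl y).1
    have a2 := off_sumV (x1 := x1) (T := T) h hM ho y hV hX hr.le
      (fun j => st sh (j + r) y + 2 ^ (j + r)) fun j _ _ => (st_off sh (j := j) r le_rfl y).2
    refine (add_le_add a1 a2).trans (le_of_eq ?_)
    rw [hE0]
    ring
  · have sub : ∀ f : ℕ → ℕ → ℝ, (∀ k j, 0 ≤ f k j) →
        ∑ k ∈ range (n + 1 - d), f k (k + d - 1 + 1) ≤ ∑ j ∈ Icc 1 (n - 0), f (j - d) j := by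
      intro f hf
      have e2 : ∑ k ∈ range (n + 1 - d), f k (k + d - 1 + 1) =
          ∑ j ∈ (range (n + 1 - d)).image (fun k => k + d), f (j - d) j := by
        rw [sum_image (by intro a _ b _ hab; simpa using hab)]
        refine sum_congr rfl fun k _ => ?_
        have e3 : k + d - 1 + 1 = k + d := by omega
        rw [e3, Nat.add_sub_cancel]
      rw [e2]
      refine sum_le_sum_of_subset_of_nonneg (fun j hj => ?_) fun j _ _ => hf _ _
      obtain ⟨k, hk, rfl⟩ := mem_image.1 hj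
      rw [mem_range] at hk
      rw [mem_Icc]
      omega
    simp only [sum_add_distrib]
    have b1 := sub (fun k j => ∑ x0 ∈ iv n T,
      Nn Mx o x1 j x0 (st sh k y) (V j (ix j x0)))
      fun _ _ => sum_nonneg fun _ _ => Nn_nonneg _ _ _ _ _ _ _
    have b2 := sub (fun k j => ∑ x0 ∈ iv n T,
      Nn Mx o x1 j x0 (st sh k y + 2 ^ k) (V j (ix j x0)))
      fun _ _ => sum_nonneg fun _ _ => Nn_nonneg _ _ _ _ _ _ _
    have a1 := off_sumV (x1 := x1) (T := T) h hM ho y hV hX (Nat.zero_le n)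
      (fun j => st sh (j - d) y) fun j _ _ => (st_off sh (j := j) 0 (by omega) y).1
    have a2 := off_sumV (x1 := x1) (T := T) h hM ho y hV hX (Nat.zero_le n)
      (fun j => st sh (j - d) y + 2 ^ (j - d)) fun j _ _ => (st_off sh (j := j) 0 (by omega) y).2
    simp only [Nat.cast_zero, add_zero, one_pow, mul_one] at a1 a2
    have c1 := b1.trans a1
    have c2 := b2.trans a2
    rw [← hE0] at c1 c2
    linarith

/-! ### The martingale of a union of cells -/

theorem iv1 (k : ℕ) (m : ℤ) {β : Type*} [AddCommMonoid β] (f : ℤ → β) :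
    ∑ x ∈ iv (k + 1) m, f x = ∑ x ∈ iv k (2 * m), f x + ∑ x ∈ iv k (2 * m + 1), f x := by
  classical
  have h1 := iv_iv (k := k) (K := k + 1) (by omega) m f
  have e : iv (k + 1 - k) m = {2 * m, 2 * m + 1} := by
    have : k + 1 - k = 1 := by omega
    rw [this]
    ext x
    unfold PL.iv
    rw [mem_Ico, mem_insert, mem_singleton]
    constructor
    · intro h; omega
    · intro h; omega
  rw [← h1, e, sum_pair (by omega)]

open scoped Classical in
/-- `v` on the union of the cells, inside the root -/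
def fD (Dn : ℕ → ℤ → Prop) (n : ℕ) (T : ℤ) (v : ι → ℝ) (x : ℤ) : ι → ℝ :=
  if ix n x = T ∧ Dn 0 x then v else 0

/-- its cell means -/
def VD (Dn : ℕ → ℤ → Prop) (n : ℕ) (T : ℤ) (v : ι → ℝ) (j : ℕ) (m : ℤ) : ι → ℝ :=
  ((2 : ℝ) ^ j)⁻¹ • ∑ x ∈ iv j m, fD Dn n T v x

variable {Dn : ℕ → ℤ → Prop}

omit [Fintype ι] in
theorem VD_mart (v : ι → ℝ) : H483.Mart n (VD Dn n T v) := by
  intro k _ m
  unfold VD
  rw [iv1, pow_succ, mul_inv, ← smul_add, smul_smul]
  congr 1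
  ring

theorem iv0 (x : ℤ) : iv 0 x = {x} := by
  ext z
  rw [mem_iv, mem_singleton]
  unfold PL.ix
  simp

omit [Fintype ι] in
theorem VD_zero (v : ι → ℝ) (x : ℤ) : VD Dn n T v 0 x = fD Dn n T v x := by
  unfold VD
  rw [iv0, sum_singleton, pow_zero, inv_one, one_smul]

theorem VD_out (v : ι → ℝ) (x : ℤ) (hx : x ∉ iv n T) : VD Dn n T v 0 x = 0 := by
  rw [VD_zero]
  unfold fD
  rw [mem_iv] at hx
  rw [if_neg fun h => hx h.1]

theorem Dn_down (hD : ∀ j a, Dn (j + 1) (a / 2) → Dn j a) {j : ℕ} {x : ℤ}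
    (h : Dn j (ix j x)) {i : ℕ} (hi : i ≤ j) : Dn i (ix i x) := by
  induction j with
  | zero =>
    have : i = 0 := by omega
    subst this
    exact h
  | succ j ih =>
    rcases Nat.lt_or_ge j i with h1 | h1
    · have : i = j + 1 := by omega
      subst this
      exact h
    · rw [ix_half] at h
      exact ih (hD _ _ h) h1

omit [Fintype ι] in
theorem VD_of (hD : ∀ j a, Dn (j + 1) (a / 2) → Dn j a) (v : ι → ℝ) {j : ℕ} (hj : j ≤ n) {m : ℤ}
    (hm : Dn j m) (hT : ix (n - j) m = T) : VD Dn n T v j m = v := by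
  have e : ∀ x ∈ iv j m, fD Dn n T v x = v := by
    intro x hx
    rw [mem_iv] at hx
    unfold fD
    have h0 : ix 0 x = x := by unfold PL.ix; simp
    have h1 : Dn 0 x := by
      have := Dn_down (x := x) hD (by rw [hx]; exact hm) (Nat.zero_le j)
      rwa [h0] at this
    have h2 : ix n x = T := by
      rw [← hT, ← hx, ix_ix, Nat.add_sub_cancel' hj]
    rw [if_pos ⟨h2, h1⟩]
  unfold VD
  rw [sum_congr rfl e, sum_const, card_iv, ← Nat.cast_smul_eq_nsmul ℝ, smul_smul]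
  push_cast
  rw [inv_mul_cancel₀ (by positivity), one_smul]

open scoped Classical in
/-- the number of points of the union in the root -/
def cD (Dn : ℕ → ℤ → Prop) (n : ℕ) (T : ℤ) : ℝ := (((iv n T).filter (Dn 0)).card : ℝ)

theorem cD_nonneg : 0 ≤ cD Dn n T := by
  unfold cD
  positivity

theorem VD_sum (v : ι → ℝ) : ∑ x0 ∈ iv n T, nsq (VD Dn n T v 0 x0) = cD Dn n T * nsq v := by
  classical
  unfold cD
  rw [card_filter]
  push_cast
  rw [sum_mul]
  refine sum_congr rfl fun x hx => ?_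
  rw [VD_zero]
  unfold fD
  rw [mem_iv] at hx
  by_cases h : Dn 0 x
  · rw [if_pos ⟨hx, h⟩, if_pos h, one_mul]
  · rw [if_neg fun h' => h h'.2, if_neg h, zero_mul, nsq_zero]

end

end Vale.Agent.P141.H179
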