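import Vale.Agent.P141.H179.GenS

/-!
# P141, line (A): the shifted slot of a later generation, fixed vector

* `wt_th` : weighted sums of numbers of the tied cells;
* `S1g` : the deviation of the slot, all scales, when the layers near `y` live on the cells `Dn`
  (coarse layers) or force a large square function below the scale (fine layers);
* `S2g` : the differences of the shifted slot.
-/

namespace Vale.Agent.P141.H179

open Finset Matrix
open Vale.Agent.P141.PL (iv ix hs mem_iv ix_ix card_iv)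
open Vale.Agent.P141.H922 (ck iv_iv)
open Vale.Agent.P141.H43 (avv nsq nsq_nonneg)
open Vale.Agent.P141.H420 (Tr)
open Vale.Agent.P141.H483 (mT)
open Vale.Agent.P141.H876 (wn near_root)
open Vale.Agent.P141.H841

noncomputable section

variable {ι : Type*} [Fintype ι]
variable {Mx : ℕ → ℤ → Matrix ι ι ℝ} {o x1 T : ℤ} {s : ℕ → ℤ → ℤ → ℝ} {n : ℕ}

/-- weighted sums of numbers of the tied cells -/
theorem wt_th (ho : o = 1 ∨ o = -1) {W : ℤ → ℝ} {e : ℝ} {k : ℕ} (hW0 : ∀ x, 0 ≤ W x)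
    (hW : ∀ j, ∑ x ∈ iv k j, W x ≤ e * 2 ^ k) (he : 0 ≤ e) {θ : ℕ → ℤ → ℝ}
    (hθ0 : ∀ k m, 0 ≤ θ k m) {j : ℕ} (hj : j < n) {M3 p : ℤ} (hp1 : M3 - 1 ≤ ix n p)
    (hp2 : ix n p ≤ M3 + 1) :
    ∑ x0 ∈ iv n T, W x0 * θ (j + 1) (ck o x1 p (j + 1) - ix (j + 1) x0) ≤
      e * 2 ^ (k - (j + 1)) * ep θ n T x1 M3 j := by
  classical
  have h1 := wt_fun (n := n) (T := T) hW0 hW (i := j + 1) (by omega)
    (f := fun x0 => θ (j + 1) (ck o x1 p (j + 1) - ix (j + 1) x0))
    (fun x0 => hθ0 _ _) (fun x z hxz => by simp only [hxz])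
  refine h1.trans (mul_le_mul_of_nonneg_left ?_ (mul_nonneg he (by positivity)))
  unfold ep
  rw [← iv_iv (show j + 1 ≤ n by omega)]
  have e3 : ∀ m ∈ iv (n - (j + 1)) T, ∑ x0 ∈ iv (j + 1) m,
      θ (j + 1) (ck o x1 p (j + 1) - ix (j + 1) x0) =
      2 ^ (j + 1) * θ (j + 1) (ck o x1 p (j + 1) - m) := by
    intro m _
    have : ∀ x0 ∈ iv (j + 1) m, θ (j + 1) (ck o x1 p (j + 1) - ix (j + 1) x0) =
        θ (j + 1) (ck o x1 p (j + 1) - m) := by
      intro x0 hx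
      rw [mem_iv] at hx
      rw [hx]
    rw [sum_congr rfl this, sum_const, card_iv, nsmul_eq_mul]
    push_cast
    ring
  rw [sum_congr rfl e3, ← mul_sum]
  refine mul_le_mul_of_nonneg_left ?_ (by positivity)
  rw [H922.biU_sum]
  have e4 : ∑ m ∈ iv (n - (j + 1)) T, θ (j + 1) (ck o x1 p (j + 1) - m) =
      ∑ q ∈ (iv (n - (j + 1)) T).image (fun m => ck o x1 p (j + 1) - m), θ (j + 1) q := by
    rw [sum_image]
    intro a _ b _ hab
    simpa using hab
  rw [e4]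
  refine sum_le_sum_of_subset_of_nonneg (fun q hq => ?_) fun q _ _ => hθ0 _ _
  obtain ⟨m, hm, rfl⟩ := mem_image.1 hq
  rw [mem_biUnion]
  exact ⟨_, H876.tie_mem ho (by omega) hp1 hp2 hm, mem_iv.2 rfl⟩

theorem num_two {i k j : ℕ} (h1 : i + 1 ≤ j) (h2 : j < k) :
    ((k - i : ℕ) : ℝ) * 2 ^ (k - (j + 1)) ≤ ((k - i - 1 : ℕ) : ℝ) * 2 ^ (k - i - 1) := by
  have hd : k - i = (k - i - 2) + 2 := by omega
  set d := k - i - 2 with hdd
  have e1 : k - i - 1 = d + 1 := by omega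
  have e2 : (2 : ℝ) ^ (k - (j + 1)) ≤ 2 ^ d := pow_le_pow_right₀ (by norm_num) (by omega)
  rw [e1, hd]
  push_cast
  have hp : (0 : ℝ) < 2 ^ d := by positivity
  have hd0 : (0 : ℝ) ≤ d := Nat.cast_nonneg d
  calc ((d : ℝ) + 2) * 2 ^ (k - (j + 1)) ≤ ((d : ℝ) + 2) * 2 ^ d :=
        mul_le_mul_of_nonneg_left e2 (by linarith)
    _ ≤ ((d : ℝ) + 1) * 2 ^ (d + 1) := by
        rw [pow_succ]
        nlinarith

open scoped Classical in
/-- **The deviation of the shifted slot, layers supported on a small set near `y`.** -/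
theorem S1g [DecidableEq ι] {l : ℝ} {G K : ℕ → ℤ → Matrix ι ι ℝ} (h : Tr l n G K)
    (hM : ∀ k m a, Mx k m *ᵥ a = mT l K k m a) (ho : o = 1 ∨ o = -1)
    (hs1 : ∀ k a b, |s k a b| ≤ 1) {W : ℕ → ℤ → ℝ} {e : ℝ} (he : 0 ≤ e)
    (hW0 : ∀ k x0, 0 ≤ W k x0) (hW : ∀ k ≤ n, ∀ j, ∑ x0 ∈ iv k j, W k x0 ≤ e * 2 ^ k)
    {θ : ℕ → ℤ → ℝ} (hθ0 : ∀ k m, 0 ≤ θ k m)
    (hθ : ∀ k m a, nsq (Mx k m *ᵥ a) ≤ θ k m * nsq a)
    {HS : ℕ → ℤ → ℝ} (hH0 : ∀ k m, 0 ≤ HS k m) (sh y : ℤ) (v : ι → ℝ) (L : ℕ)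
    {al : ℕ → Prop} (hal : ∀ k, ¬ al k → ∀ x0, W k x0 = 0)
    {Dn : ℕ → ℤ → Prop} (hD : ∀ j a, Dn (j + 1) (a / 2) → Dn j a) {q0 : ℝ} (hq : 0 < q0)
    (h1 : ∀ i < n, ∀ x0 p, |ix (i + 1) p - ix (i + 1) y| ≤ 1 →
      s (i + 1) (ix (i + 1) x0) (ix (i + 1) p) ≠ 0 → Dn (i + 1) (ix (i + 1) x0))
    (h2 : ∀ k ≤ n, ∀ i < k, ∀ x0 p, |p - y| ≤ 2 ^ k →
      s (i + 1) (ix (i + 1) x0) (ix (i + 1) p) ≠ 0 → Dn k (ix k x0) ∨
        q0 ≤ ((k - i : ℕ) : ℝ) *
          ∑ j ∈ Ico (i + 1) k, HS (j + 1) (ck o x1 p (j + 1) - ix (j + 1) x0)) :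
    ∑ k ∈ range (n + 1), ∑ x0 ∈ iv n T, W k x0 *
        nsq ((Rs Mx o x1 s n sh k x0 (ix k (y - sh)) - Rm Mx o x1 s n k x0 y) *ᵥ v) ≤
      e * ((600 + 8 * (L : ℝ) ^ 3) * (20000 * (cD Dn n T * nsq v)) +
        2 * ((600 + 8 * (L : ℝ) ^ 5) * (nsq v / q0 * ∑ j ∈ range n, ep HS n T x1 (ix n y) j)) +
        2 * (nsq v * fr n L (ep θ n T x1 (ix n y)) al sh y)) := by
  set M3 := ix n y with hM3
  set V : ℕ → ℤ → ι → ℝ := VD Dn n T v with hV
  set E : ℕ → ℝ := fun j => ep HS n T x1 M3 j with hE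
  have hE0 : ∀ j, 0 ≤ E j := fun j => ep_nonneg hH0 _ _ _ _ _
  have nv := nsq_nonneg v
  have c0 : 0 ≤ nsq v / q0 := div_nonneg nv hq.le
  set A : ℕ → ℕ → ℤ → ℝ := fun k i x0 =>
    Nn Mx o x1 (i + 1) x0 (st sh k y) (V (i + 1) (ix (i + 1) x0)) +
    Nn Mx o x1 (i + 1) x0 (st sh k y + 2 ^ k) (V (i + 1) (ix (i + 1) x0)) with hA
  have hA0 : ∀ k i x0, 0 ≤ A k i x0 := fun _ _ _ =>
    add_nonneg (Nn_nonneg _ _ _ _ _ _ _) (Nn_nonneg _ _ _ _ _ _ _)
  set X : ℕ → ℕ → ℤ → ℤ → ℝ := fun k i x0 p => if i < k then ((k - i : ℕ) : ℝ) *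
    (∑ j ∈ Ico (i + 1) k, HS (j + 1) (ck o x1 p (j + 1) - ix (j + 1) x0)) * (nsq v / q0) else 0
    with hX
  have hX0 : ∀ k i x0 p, 0 ≤ X k i x0 p := by
    intro k i x0 p
    simp only [hX]
    split_ifs
    · exact mul_nonneg (mul_nonneg (Nat.cast_nonneg _) (sum_nonneg fun _ _ => hH0 _ _)) c0
    · exact le_rfl
  -- one layer, near
  have near1 : ∀ k ≤ n, ∀ i < n, ∀ x0 ∈ iv n T, ∀ p, |p - y| ≤ 2 ^ k →
      Nx Mx o x1 s (i + 1) x0 p v ≤
        Nn Mx o x1 (i + 1) x0 p (V (i + 1) (ix (i + 1) x0)) + X k i x0 p := by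
    intro k hk i hi x0 hx p hp
    have hN := Nn_nonneg Mx o x1 (i + 1) x0 p (V (i + 1) (ix (i + 1) x0))
    have hXk := hX0 k i x0 p
    by_cases hs0 : s (i + 1) (ix (i + 1) x0) (ix (i + 1) p) = 0
    · have : Nx Mx o x1 s (i + 1) x0 p v = 0 := by
        unfold Nx
        rw [hs0]
        ring
      rw [this]
      linarith
    have le1 := Nx_le (Mx := Mx) (o := o) (x1 := x1) hs1 (i + 1) x0 p v
    rw [mem_iv] at hx
    have hroot : ix (n - (i + 1)) (ix (i + 1) x0) = T := by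
      rw [ix_ix, Nat.add_sub_cancel' (by omega : i + 1 ≤ n), hx]
    have good : Dn (i + 1) (ix (i + 1) x0) → Nx Mx o x1 s (i + 1) x0 p v ≤
        Nn Mx o x1 (i + 1) x0 p (V (i + 1) (ix (i + 1) x0)) + X k i x0 p := by
      intro hd
      have e1 : V (i + 1) (ix (i + 1) x0) = v := VD_of hD v (by omega) hd hroot
      rw [e1]
      linarith
    rw [abs_le] at hp
    by_cases hik : i < k
    · rcases h2 k hk i hik x0 p (abs_le.2 hp) hs0 with hd | hd
      · exact good (Dn_down hD hd (by omega))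
      · have le2 : Nn Mx o x1 (i + 1) x0 p v ≤ nsq v := by
          unfold Nn
          rw [hM]
          exact H483.mT_le h hi _ v
        have le3 : nsq v ≤ X k i x0 p := by
          simp only [hX]
          rw [if_pos hik]
          calc nsq v = q0 * (nsq v / q0) := by field_simp
            _ ≤ _ := mul_le_mul_of_nonneg_right hd c0
        linarith
    · have nb := near_root (n := i + 1) (k := k) (by omega) (p := p) (y := y) (by linarith [hp.1])
        (by linarith [hp.2])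
      exact good (h1 i hi x0 p (abs_le.2 ⟨by linarith [nb.1], by linarith [nb.2]⟩) hs0)
  -- the ends of the shifted cell
  have hst : ∀ k, |st sh k y - y| ≤ 2 ^ k ∧ |st sh k y + 2 ^ k - y| ≤ 2 ^ k := by
    intro k
    obtain ⟨t1, t2⟩ := st_bd sh k y
    have hp : (0 : ℤ) < 2 ^ k := by positivity
    constructor
    · rw [abs_le]; constructor <;> linarith
    · rw [abs_le]; constructor <;> linarith
  have hroot : ∀ k ≤ n, (M3 - 1 ≤ ix n (st sh k y) ∧ ix n (st sh k y) ≤ M3 + 1) ∧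
      (M3 - 1 ≤ ix n (st sh k y + 2 ^ k) ∧ ix n (st sh k y + 2 ^ k) ≤ M3 + 1) := by
    intro k hk
    obtain ⟨t1, t2⟩ := st_bd sh k y
    have h0 : (0 : ℤ) < 2 ^ k := by positivity
    exact ⟨near_root hk (by linarith) (by linarith), near_root hk (by linarith) (by linarith)⟩
  -- the far part, weights
  have far1 : ∀ k ≤ n, ∀ i < n, k ≤ i → ∀ p, M3 - 1 ≤ ix n p → ix n p ≤ M3 + 1 →
      ∑ x0 ∈ iv n T, W k x0 * Nx Mx o x1 s (i + 1) x0 p v ≤
        e * (nsq v * ep θ n T x1 M3 i) := by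
    intro k hk i hi hki p hp1 hp2
    have g1 := wt_th (T := T) (x1 := x1) (n := n) ho (hW0 k) (hW k hk) he hθ0 hi hp1 hp2
    have e2 : k - (i + 1) = 0 := by omega
    rw [e2, pow_zero, mul_one] at g1
    have g2 : ∑ x0 ∈ iv n T, W k x0 * Nx Mx o x1 s (i + 1) x0 p v ≤
        nsq v * ∑ x0 ∈ iv n T, W k x0 * θ (i + 1) (ck o x1 p (i + 1) - ix (i + 1) x0) := by
      rw [mul_sum]
      refine sum_le_sum fun x0 _ => ?_
      have g3 : Nx Mx o x1 s (i + 1) x0 p v ≤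
          θ (i + 1) (ck o x1 p (i + 1) - ix (i + 1) x0) * nsq v :=
        (Nx_le hs1 (i + 1) x0 p v).trans (hθ _ _ _)
      have := mul_le_mul_of_nonneg_left g3 (hW0 k x0)
      linarith
    refine g2.trans ((mul_le_mul_of_nonneg_left g1 nv).trans (le_of_eq ?_))
    ring
  -- the square functions, weights
  have hX1 : ∀ k ≤ n, ∀ i < n, ∀ p, M3 - 1 ≤ ix n p → ix n p ≤ M3 + 1 →
      ∑ x0 ∈ iv n T, W k x0 * X k i x0 p ≤ e * ((nsq v / q0) *
        (if i < k then ((k - i - 1 : ℕ) : ℝ) * 2 ^ (k - i - 1) * ∑ j ∈ Ico (i + 1) k, E j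
          else ((i + 1 - k : ℕ) : ℝ) * ∑ j ∈ Ico k (i + 1), E j)) := by
    intro k hk i hi p hp1 hp2
    by_cases hik : i < k
    · simp only [hX]
      rw [if_pos hik]
      simp only [if_pos hik]
      have e1 : ∑ x0 ∈ iv n T, W k x0 * (((k - i : ℕ) : ℝ) *
          (∑ j ∈ Ico (i + 1) k, HS (j + 1) (ck o x1 p (j + 1) - ix (j + 1) x0)) *
            (nsq v / q0)) = ∑ j ∈ Ico (i + 1) k, ((k - i : ℕ) : ℝ) * (nsq v / q0) *
          ∑ x0 ∈ iv n T, W k x0 * HS (j + 1) (ck o x1 p (j + 1) - ix (j + 1) x0) := by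
        simp only [mul_sum, sum_mul]
        rw [sum_comm]
        refine sum_congr rfl fun j _ => sum_congr rfl fun x0 _ => ?_
        ring
      rw [e1]
      have e2 : e * ((nsq v / q0) * (((k - i - 1 : ℕ) : ℝ) * 2 ^ (k - i - 1) *
          ∑ j ∈ Ico (i + 1) k, E j)) = ∑ j ∈ Ico (i + 1) k, e * ((nsq v / q0) *
            (((k - i - 1 : ℕ) : ℝ) * 2 ^ (k - i - 1) * E j)) := by
        simp only [mul_sum]
      rw [e2]
      refine sum_le_sum fun j hj => ?_
      rw [mem_Ico] at hj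
      have g1 := wt_th (T := T) (x1 := x1) (n := n) ho (hW0 k) (hW k hk) he hH0
        (show j < n by omega) hp1 hp2
      have g2 := num_two hj.1 hj.2
      have g3 : (0 : ℝ) ≤ ((k - i : ℕ) : ℝ) * (nsq v / q0) := mul_nonneg (Nat.cast_nonneg _) c0
      refine (mul_le_mul_of_nonneg_left g1 g3).trans ?_
      have g4 : 0 ≤ e * ((nsq v / q0) * E j) := mul_nonneg he (mul_nonneg c0 (hE0 j))
      have g5 := mul_le_mul_of_nonneg_right g2 g4
      refine le_trans (le_of_eq ?_) (g5.trans (le_of_eq ?_))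
      · simp only [hE]
        ring
      · ring
    · have z : ∑ x0 ∈ iv n T, W k x0 * X k i x0 p = 0 := by
        refine sum_eq_zero fun x0 _ => ?_
        simp only [hX]
        rw [if_neg hik, mul_zero]
      rw [z, if_neg hik]
      exact mul_nonneg he (mul_nonneg c0 (mul_nonneg (Nat.cast_nonneg _)
        (sum_nonneg fun j _ => hE0 j)))
  -- the martingale, weights
  have mov1 : ∀ k ≤ n, ∀ i < n, ∑ x0 ∈ iv n T, W k x0 * A k i x0 ≤
      e * 2 ^ (k - (i + 1)) * ∑ x0 ∈ iv n T, A k i x0 := by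
    intro k hk i hi
    refine wt_fun (n := n) (T := T) (hW0 k) (hW k hk) (i := i + 1) (by omega)
      (f := fun x0 => A k i x0) (fun x0 => hA0 k i x0) fun x z hxz => ?_
    simp only [hA]
    unfold Nn
    rw [hxz]
  -- one scale
  have scale' : ∀ k ∈ range (n + 1), al k → ∑ x0 ∈ iv n T, W k x0 *
      nsq ((Rs Mx o x1 s n sh k x0 (ix k (y - sh)) - Rm Mx o x1 s n k x0 y) *ᵥ v) ≤
      e * ∑ i ∈ range n, (if i + 1 ≤ k + L then om sh k i y * 2 ^ (k - (i + 1)) *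
        ∑ x0 ∈ iv n T, A k i x0 else 0) +
      2 * (e * ((nsq v / q0) * ∑ i ∈ range n, (if i + 1 ≤ k + L then om sh k i y *
        (if i < k then ((k - i - 1 : ℕ) : ℝ) * 2 ^ (k - i - 1) * ∑ j ∈ Ico (i + 1) k, E j
          else ((i + 1 - k : ℕ) : ℝ) * ∑ j ∈ Ico k (i + 1), E j) else 0))) +
      2 * (e * (nsq v * ∑ i ∈ range n,
        (if k + L ≤ i then om sh k i y * ep θ n T x1 M3 i else 0))) := by
    intro k hk _
    rw [mem_range] at hk
    have hkn : k ≤ n := by omega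
    have e1 : ∀ x0 ∈ iv n T, W k x0 *
        nsq ((Rs Mx o x1 s n sh k x0 (ix k (y - sh)) - Rm Mx o x1 s n k x0 y) *ᵥ v) ≤
        ∑ i ∈ range n, om sh k i y * (W k x0 * Nx Mx o x1 s (i + 1) x0 (st sh k y) v +
          W k x0 * Nx Mx o x1 s (i + 1) x0 (st sh k y + 2 ^ k) v) := by
      intro x0 _
      refine (mul_le_mul_of_nonneg_left (dev_les n sh hkn x0 y v)
        (hW0 k x0)).trans (le_of_eq ?_)
      rw [mul_sum]
      exact sum_congr rfl fun i _ => by ring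
    refine (sum_le_sum e1).trans ?_
    rw [sum_comm]
    have e2 : ∀ i ∈ range n, ∑ x0 ∈ iv n T, om sh k i y *
        (W k x0 * Nx Mx o x1 s (i + 1) x0 (st sh k y) v +
          W k x0 * Nx Mx o x1 s (i + 1) x0 (st sh k y + 2 ^ k) v) ≤
        e * (if i + 1 ≤ k + L then om sh k i y * 2 ^ (k - (i + 1)) *
          ∑ x0 ∈ iv n T, A k i x0 else 0) +
        2 * (e * ((nsq v / q0) * (if i + 1 ≤ k + L then om sh k i y *
          (if i < k then ((k - i - 1 : ℕ) : ℝ) * 2 ^ (k - i - 1) * ∑ j ∈ Ico (i + 1) k, E j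
            else ((i + 1 - k : ℕ) : ℝ) * ∑ j ∈ Ico k (i + 1), E j) else 0))) +
        2 * (e * (nsq v * (if k + L ≤ i then om sh k i y * ep θ n T x1 M3 i else 0))) := by
      intro i hi
      rw [mem_range] at hi
      have om0 := om_nonneg sh k i y
      obtain ⟨r1, r2⟩ := hroot k hkn
      obtain ⟨q1, q2⟩ := hst k
      rw [← mul_sum, sum_add_distrib]
      by_cases hn : i + 1 ≤ k + L
      · rw [if_pos hn, if_pos hn, if_neg (show ¬ k + L ≤ i by omega)]
        have g1 : ∑ x0 ∈ iv n T, W k x0 * Nx Mx o x1 s (i + 1) x0 (st sh k y) v +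
            ∑ x0 ∈ iv n T, W k x0 * Nx Mx o x1 s (i + 1) x0 (st sh k y + 2 ^ k) v ≤
            ∑ x0 ∈ iv n T, W k x0 * A k i x0 +
            (∑ x0 ∈ iv n T, W k x0 * X k i x0 (st sh k y) +
              ∑ x0 ∈ iv n T, W k x0 * X k i x0 (st sh k y + 2 ^ k)) := by
          rw [← sum_add_distrib, ← sum_add_distrib, ← sum_add_distrib]
          refine sum_le_sum fun x0 hx => ?_
          have n1 := mul_le_mul_of_nonneg_left (near1 k hkn i hi x0 hx (st sh k y) q1) (hW0 k x0)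
          have n2 := mul_le_mul_of_nonneg_left (near1 k hkn i hi x0 hx (st sh k y + 2 ^ k) q2)
            (hW0 k x0)
          simp only [hA]
          linarith
        have g2 := mov1 k hkn i hi
        have g3 := hX1 k hkn i hi (st sh k y) r1.1 r1.2
        have g4 := hX1 k hkn i hi (st sh k y + 2 ^ k) r2.1 r2.2
        have g5 := g1.trans (add_le_add g2 (add_le_add g3 g4))
        refine (mul_le_mul_of_nonneg_left g5 om0).trans (le_of_eq ?_)
        ring
      · rw [if_neg hn, if_neg hn, if_pos (show k + L ≤ i by omega)]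
        have f1 := far1 k hkn i hi (by omega) (st sh k y) r1.1 r1.2
        have f2 := far1 k hkn i hi (by omega) (st sh k y + 2 ^ k) r2.1 r2.2
        refine (mul_le_mul_of_nonneg_left (add_le_add f1 f2) om0).trans (le_of_eq ?_)
        ring
    refine (sum_le_sum e2).trans (le_of_eq ?_)
    rw [sum_add_distrib, sum_add_distrib]
    simp only [← mul_sum]
  have scale : ∀ k ∈ range (n + 1), ∑ x0 ∈ iv n T, W k x0 *
      nsq ((Rs Mx o x1 s n sh k x0 (ix k (y - sh)) - Rm Mx o x1 s n k x0 y) *ᵥ v) ≤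
      e * ∑ i ∈ range n, (if i + 1 ≤ k + L then om sh k i y * 2 ^ (k - (i + 1)) *
        ∑ x0 ∈ iv n T, A k i x0 else 0) +
      2 * (e * ((nsq v / q0) * ∑ i ∈ range n, (if i + 1 ≤ k + L then om sh k i y *
        (if i < k then ((k - i - 1 : ℕ) : ℝ) * 2 ^ (k - i - 1) * ∑ j ∈ Ico (i + 1) k, E j
          else ((i + 1 - k : ℕ) : ℝ) * ∑ j ∈ Ico k (i + 1), E j) else 0))) +
      2 * (e * (nsq v * ∑ i ∈ range n,
        (if al k ∧ k + L ≤ i then om sh k i y * ep θ n T x1 M3 i else 0))) := by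
    intro k hk
    by_cases hak : al k
    · have := scale' k hk hak
      simp only [hak, true_and]
      exact this
    · have z1 : ∑ x0 ∈ iv n T, W k x0 *
          nsq ((Rs Mx o x1 s n sh k x0 (ix k (y - sh)) - Rm Mx o x1 s n k x0 y) *ᵥ v) = 0 :=
        sum_eq_zero fun x0 _ => by rw [hal k hak x0, zero_mul]
      have z3 : ∑ i ∈ range n, (if al k ∧ k + L ≤ i then om sh k i y * ep θ n T x1 M3 i
          else 0) = 0 := sum_eq_zero fun i _ => by rw [if_neg fun h' => hak h'.1]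
      have z4 : 0 ≤ ∑ i ∈ range n, (if i + 1 ≤ k + L then om sh k i y * 2 ^ (k - (i + 1)) *
          ∑ x0 ∈ iv n T, A k i x0 else 0) := by
        refine sum_nonneg fun i _ => ?_
        split_ifs
        · exact mul_nonneg (mul_nonneg (om_nonneg _ _ _ _) (by positivity))
            (sum_nonneg fun _ _ => hA0 _ _ _)
        · exact le_rfl
      have z5 : 0 ≤ ∑ i ∈ range n, (if i + 1 ≤ k + L then om sh k i y *
          (if i < k then ((k - i - 1 : ℕ) : ℝ) * 2 ^ (k - i - 1) *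
            ∑ j ∈ Ico (i + 1) k, E j
          else ((i + 1 - k : ℕ) : ℝ) * ∑ j ∈ Ico k (i + 1), E j) else 0) := by
        refine sum_nonneg fun i _ => ?_
        split_ifs
        · exact mul_nonneg (om_nonneg _ _ _ _) (mul_nonneg (by positivity)
            (sum_nonneg fun j _ => hE0 j))
        · exact mul_nonneg (om_nonneg _ _ _ _) (mul_nonneg (by positivity)
            (sum_nonneg fun j _ => hE0 j))
        · exact le_rfl
      rw [z1, z3]
      have z6 := mul_nonneg he z4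
      have z7 := mul_nonneg he (mul_nonneg c0 z5)
      linarith
  -- the sum over the scales
  refine (sum_le_sum scale).trans ?_
  rw [sum_add_distrib, sum_add_distrib]
  simp only [← mul_sum]
  have s1 := near_movV (x1 := x1) (T := T) h hM ho sh y (VD_mart (Dn := Dn) (T := T) (n := n) v)
    (fun x hx => VD_out v x hx) L
  rw [VD_sum] at s1
  have s2 := H690.near_lay n L sh y (E := E) hE0
  have t1 := mul_le_mul_of_nonneg_left s1 he
  have t2 := mul_le_mul_of_nonneg_left (mul_le_mul_of_nonneg_left s2 c0) he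
  have rhs : e * ((600 + 8 * (L : ℝ) ^ 3) * (20000 * (cD Dn n T * nsq v)) +
        2 * ((600 + 8 * (L : ℝ) ^ 5) * (nsq v / q0 * ∑ j ∈ range n, ep HS n T x1 M3 j)) +
        2 * (nsq v * fr n L (ep θ n T x1 M3) al sh y)) =
      e * ((600 + 8 * (L : ℝ) ^ 3) * (20000 * (cD Dn n T * nsq v))) +
        2 * (e * ((nsq v / q0) * ((600 + 8 * (L : ℝ) ^ 5) * ∑ j ∈ range n, E j))) +
        2 * (e * (nsq v * fr n L (ep θ n T x1 M3) al sh y)) := by
    simp only [hE]
    ring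
  rw [rhs]
  unfold fr
  simp only [hA] at t1 ⊢
  linarith

end

end Vale.Agent.P141.H179
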